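import Vale.Agent.P057MC.Vp

/-!
Polarisations of morphisms of towers are morphisms of symbol cubes.
-/

set_option linter.all false

open Matrix Finset
open Vale.Agent.P267.H775 Vale.Agent.P057G Vale.Agent.P057TP Vale.Agent.P057SY
open Vale.Agent.P057PC (Alg Sup Cf)
open Vale.Agent.P057MA (IntV Fm fce ln2 Nle scl nar ln2_scl ln2_nonneg scl_scl scl_one mem_fce)
open Vale.Agent.P057TE (SL fr sym_ok sym_cen)
open Vale.Agent.P057ST (hm IntA)
open Vale.Agent.P057PU (cq p_eq pol_eq lin_cq cq_on)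

namespace Vale.Agent.P057MC

noncomputable section

variable {V : Type} [Fintype V] [DecidableEq V] {T T' : Tow} {m s : ℕ} {N : ℝ}
  {φ : T.ι → MvPolynomial T'.ι ℤ}

theorem hm_pt (B : Finset V) (u : SA T V m → ℝ) (a : T.ι) :
    hm (chi B) (PT u a) = ∑ F : Finset V, if F ⊆ B then (PT u a).coeff F.val else 0 := by
  rw [hm_chi, sum_subset (s₂ := univ.image Finset.val) (fun μ hμ => ?_) fun μ _ hμ => ?_,
    sum_image val_injective.injOn]
  · simp only [val_toFinset]
  · obtain ⟨k, -, rfl⟩ := pt_ne (Finsupp.mem_support_iff.1 hμ)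
    exact mem_image_of_mem _ (mem_univ _)
  · rw [Finsupp.notMem_support_iff.1 hμ, ite_self]

theorem card_fs : ((univ : Finset (Finset V)).card : ℝ) = 2 ^ Fintype.card V := by
  rw [card_univ, Fintype.card_finset]; norm_cast

/-- the real points of a small configuration lie in the unit ball -/
theorem ball_vp (hT : T.Ok s N) {x : SA T V m → ℝ} {Y : T.ι → Alg (Multiset V)}
    (h3 : ∀ a, T.lv a < m → Y a - MvPolynomial.aeval Y (T.q a) = PT (x - (S0 T V m).p x) a)
    (hx : ln2 (S0 T V m) univ x ≤ (2 ^ Fintype.card V)⁻¹) (B : Finset V) :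
    T.Ball m fun b => hm (chi B) (Y b) := by
  intro e he
  rw [ln2_S0] at hx
  generalize x - (S0 T V m).p x = u at *
  have e1 : (fun a => if T.lv a = e then T.ps (fun b => hm (chi B) (Y b)) a else 0) =
      ∑ F : Finset V, if F ⊆ B ∧ F.card = e then fun a => (PT u a).coeff F.val else 0 := by
    funext a
    rw [Finset.sum_apply]
    split_ifs with h
    · rw [← hm_ps, h3 a (h ▸ he), hm_pt]
      refine sum_congr rfl fun F _ => ?_
      by_cases k : F.card = e
      · by_cases k' : F ⊆ B <;> simp [k, k']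
      · rw [if_neg fun n : _ ∧ _ => k n.2, pt_out u fun n => k (n.2.trans h), ite_self]; rfl
    · refine (sum_eq_zero fun F _ => ?_).symm
      split_ifs with k
      exacts [pt_out u fun n => h (n.2.symm.trans k.2), rfl]
  have h0 : ∀ F : Finset V, 0 ≤ qq T.G fun a => (PT u a).coeff F.val := fun F =>
    qq_nonneg hT.pd.posSemidef _
  rw [Tow.ln, e1]
  refine (P057ST.qq_sum_le hT.pd.posSemidef _ _).trans ?_
  have h1 : ∑ F : Finset V, qq T.G (if F ⊆ B ∧ F.card = e then fun a => (PT u a).coeff F.val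
      else 0) ≤ ∑ F : Finset V, qq T.G fun a => (PT u a).coeff F.val :=
    sum_le_sum fun F _ => by
      split_ifs
      exacts [le_rfl, (qq_zero _).trans_le (h0 F)]
  have h2 := sum_nonneg fun F (_ : F ∈ univ) => h0 F
  rw [card_fs, ← le_div_iff₀' (by positivity), one_div]
  linarith

theorem hom_map {σ : Type} {w : σ → ℕ} {n : ℕ} {Q : MvPolynomial σ ℤ}
    (h : Q.IsWeightedHomogeneous w n) :
    (MvPolynomial.map (Int.castRingHom ℝ) Q).IsWeightedHomogeneous w n := fun d hd =>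
  h fun n => hd (by rw [MvPolynomial.coeff_map, n, map_zero])

theorem ball_pol (hT : T.Ok s N) (hT' : T'.Ok s N) (hφ : Mor m T' T φ) {x : SA T' V m → ℝ}
    (hx : ln2 (S0 T' V m) univ x ≤ (2 ^ Fintype.card V)⁻¹) :
    ln2 (S0 T V m) univ (pol φ x) ≤ 25 * 8 ^ Fintype.card V := by
  obtain ⟨Y, h1, h2, h3⟩ := exists_vp hT' x
  have hb := fun B => hφ.ball _ (ball_vp hT' h3 hx B)
  obtain ⟨Z, hZ⟩ : ∃ Z : T.ι → Alg (Multiset V), Z = fun b => if T.lv b < m then
    MvPolynomial.aeval Y (MvPolynomial.map (Int.castRingHom ℝ) (φ b)) else 0 := ⟨_, rfl⟩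
  have z1 : ∀ b, Sup (fun μ => μ.card = T.lv b) (Z b) := fun b => by
    rw [hZ]; beta_reduce
    split_ifs with h
    exacts [sup_aeval (hom_map (hφ.hom b h)) h1, Sup.zero _]
  have z2 : Cg Z (PT (pol φ x)) := fun b F => by
    by_cases h : T.lv b < m ∧ F.card = T.lv b
    · refine Eq.trans ?_ ((pt_lab (pol φ x) ⟨(b, F), h.1, h.2, trivial⟩).trans
        ((pol_eq φ x _).trans (h2.aeval _ _).symm)).symm
      rw [hZ]
      exact congrArg (fun u : Alg (Multiset V) => u.coeff F.val) (if_pos h.1)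
    · rw [pt_out _ h]
      by_cases k : T.lv b < m
      · exact (z1 b).coeff fun n => h ⟨k, n⟩
      · rw [hZ]; beta_reduce; rw [if_neg k]; rfl
  have z3 : ∀ B b, T.lv b < m → hm (chi B) (Z b) = ap φ (fun b => hm (chi B) (Y b)) b :=
    fun B b h => by
      rw [hZ]; beta_reduce
      rw [if_pos h, MvPolynomial.comp_aeval_apply]
      exact MvPolynomial.aeval_map_algebraMap ℝ _ (φ b)
  have z4 : ∀ B a, T.lv a < m → T.ps (fun b => hm (chi B) (Z b)) a =
      T.ps (ap φ fun b => hm (chi B) (Y b)) a := fun B a h => by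
    rw [Tow.ps, Tow.ps, z3 B a h]
    exact congrArg _ (MvPolynomial.eval₂Hom_congr' rfl
      (fun j hj _ => z3 B j ((hT.low a j hj).trans h)) rfl)
  rw [ln2_S0]
  refine mul_le_mul_of_nonneg_left ((sum_le_card_nsmul _ _ (4 ^ Fintype.card V) fun A _ => ?_).trans
    (by rw [nsmul_eq_mul, card_fs, ← mul_pow]; norm_num)) (by norm_num)
  by_cases hA : A.card < m
  · have e1 : (fun a => (PT (pol φ x - (S0 T V m).p (pol φ x)) a).coeff A.val) =
        ∑ B ∈ A.powerset, (-1 : ℝ) ^ (A.card - B.card) • fun a => if T.lv a = A.card then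
          T.ps (ap φ fun b => hm (chi B) (Y b)) a else 0 := by
      funext a
      rw [Finset.sum_apply]
      simp only [Pi.smul_apply, smul_eq_mul]
      split_ifs with h
      · refine (pt_lab _ ⟨(a, A), h ▸ hA, h.symm, trivial⟩).trans ((pos_dlt hT z1 z2 _).trans ?_)
        exact dlt_congr fun B _ => z4 B a (h ▸ hA)
      · rw [pt_out _ fun n => h n.2.symm]; simp
    rw [e1]
    refine (P057ST.qq_sum_le hT.pd.posSemidef _ _).trans ?_
    have h4 : (A.powerset.card : ℝ) ≤ 2 ^ Fintype.card V := by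
      rw [← card_fs]; exact_mod_cast card_le_univ _
    refine (mul_le_mul h4 ((sum_le_card_nsmul _ _ 1 fun B _ => ?_).trans
      ((nsmul_one _).trans_le h4)) (sum_nonneg fun _ _ => qq_nonneg hT.pd.posSemidef _)
      (by positivity)).trans (by rw [← mul_pow]; norm_num)
    rw [qq_smul, ← pow_mul, mul_comm _ 2, pow_mul, neg_one_sq, one_pow, one_mul]
    exact hb B _ hA
  · rw [show (fun a => (PT (pol φ x - (S0 T V m).p (pol φ x)) a).coeff A.val) = 0 from
      funext fun a => pt_out _ fun n => hA (n.2 ▸ n.1), qq_zero]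
    positivity

theorem fmp_pol (φ : T.ι → MvPolynomial T'.ι ℤ) : P057CO.Fmp (S0 T' V m) (S0 T V m) (pol φ) :=
  fun k => by
    simp only [pol_eq]
    exact ⟨fun _ _ h => cq_on _ _ fun l hl => h l (mem_fce.2 hl), fun v hv => lin_cq _ hv⟩

theorem int_pol (φ : T.ι → MvPolynomial T'.ι ℤ) (k : SA T V m) : IntV fun z => pol φ z k := by
  intro z
  have h : ∀ Q : MvPolynomial T'.ι ℤ,
      IntA (MvPolynomial.eval₂ (Int.castRingHom _) (PT (V := V) (m := m) (toR z)) Q) := fun Q => by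
    induction Q using MvPolynomial.induction_on with
    | C n => rw [MvPolynomial.eval₂_C]; exact IntA.single 0 n
    | add p q hp hq => rw [MvPolynomial.eval₂_add]; exact hp.add hq
    | mul_X p a hp =>
      rw [MvPolynomial.eval₂_mul, MvPolynomial.eval₂_X]
      refine hp.mul (IntA.sum _ fun l _ => ?_)
      split_ifs
      exacts [IntA.single _ _, IntA.zero]
  exact h _ _

theorem pol_pa (φ : T.ι → MvPolynomial T'.ι ℤ) (ρ : Equiv.Perm V) (x : SA T' V m → ℝ) :
    pol φ x ∘ pa ρ = pol φ (x ∘ pa ρ) := by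
  funext k
  have h : Cg (fun b => P057ST.sb (P057ST.sel ρ) (PT x b)) (PT (x ∘ pa ρ)) := fun b F => by
    rw [P057TE.coeff_sel ρ.injective]
    by_cases h : T'.lv b < m ∧ F.card = T'.lv b
    · exact (pt_lab x (pa ρ ⟨(b, F), h.1, h.2, trivial⟩)).trans
        (pt_lab (x ∘ pa ρ) ⟨(b, F), h.1, h.2, trivial⟩).symm
    · rw [pt_out _ h]
      exact pt_out (F := F.map ρ.toEmbedding) x (by rwa [card_map])
  rw [Function.comp_apply, pol_eq, pol_eq, cq, cq, ← h.aeval, ← MvPolynomial.comp_aeval_apply,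
    P057TE.coeff_sel ρ.injective]
  rfl

theorem ok_S0 (hT : T.Ok s N) : (S0 T V m).Ok := sym_ok hT (fun _ _ _ _ => trivial) (by norm_num)

theorem cen_S0 (hT : T.Ok s N) : (S0 T V m).Cen := sym_cen hT (fun _ _ _ _ => trivial) _

theorem mor_pol (hT : T.Ok s N) (hT' : T'.Ok s N) (hφ : Mor m T' T φ)
    (hV : Fintype.card V ≤ s + 1) {c : ℝ} (hc : (10 * 3 ^ (s + 1)) ^ (s + 1) ≤ c) :
    P057MA.Mor (nar (S0 T' V m) c) (S0 T V m) (pol φ) := by
  have t1 : (1 : ℝ) ≤ 3 ^ (s + 1) := one_le_pow₀ (by norm_num)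
  refine mor_nar (fmp_pol φ) (int_pol φ) (ok_S0 hT') (cen_S0 hT') (ok_S0 hT) (cen_S0 hT)
    (t := 5 * 3 ^ (s + 1)) (by linarith) (lt_of_lt_of_le (by positivity) hc)
    (fun z hz => (ball_pol hT hT' hφ hz).trans ?_) ?_
  · rw [mul_pow, ← pow_mul, mul_comm _ 2, pow_mul]
    refine mul_le_mul (by norm_num) ((pow_le_pow_left₀ (by norm_num) (by norm_num) _).trans
      (pow_le_pow_right₀ (by norm_num) hV)) (by positivity) (by norm_num)
  · rw [le_inv_mul_iff₀ (by positivity)]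
    refine le_trans ?_ (pow_le_pow_left₀ (by positivity) ((pow_le_pow_right₀ (by linarith) hV).trans
      hc) 2)
    rw [show (10 : ℝ) * 3 ^ (s + 1) = 2 * (5 * 3 ^ (s + 1)) by ring, mul_pow 2, mul_pow _ _ 2]
    have : (1 : ℝ) ≤ 2 ^ Fintype.card V := one_le_pow₀ (by norm_num)
    exact mul_le_mul_of_nonneg_right (by nlinarith) (by positivity)

section hat

variable {K R : Type} [Fintype K] [DecidableEq K] [Fintype R] [DecidableEq R]

theorem qq_clo {X : Xt V (SA T V m) K} (hG : X.G.PosDef) (r : R → Equiv.Perm V) (v : R × K → ℝ) :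
    0 ≤ qq (X.clo r).G v := by
  have : qq (X.clo r).G v = ∑ a, qq X.G fun e => v (a, e) := by
    simp only [qq, dotProduct, mulVec, Fintype.sum_prod_type, of_apply, ite_mul, zero_mul]
    refine sum_congr rfl fun a _ => sum_congr rfl fun e _ => ?_
    rw [sum_comm]
    simp only [sum_ite_eq, mem_univ, if_true]
  rw [this]
  exact sum_nonneg fun _ _ => qq_nonneg hG.posSemidef _

theorem cpr_sg {σ : (SA T' V m → ℝ) → SA T V m → ℝ} (hσ : ∀ ρ x, σ x ∘ pa ρ = σ (x ∘ pa ρ))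
    (r : R → Equiv.Perm V) (a : R) (x : SA T' V m ⊕ R × K → ℝ) :
    cpr r a (sg σ x) = sg σ (cpr r a x) := by
  funext i
  cases i with
  | inl k => exact congrFun (hσ (r a) (x ∘ Sum.inl)) k
  | inr e => rfl

theorem hat_pol (hT : T.Ok s N) (hT' : T'.Ok s N) {c₀ c : ℝ} (c1 : 1 ≤ c₀)
    (hM : P057MA.Mor (nar (S0 T' V m) c₀) (S0 T V m) (pol φ)) (h1 : c₀ ^ Fintype.card V ≤ c)
    (h2 : (Fintype.card V + 1) * c₀ ^ 2 ≤ c) {X : Xt V (SA T V m) K} {ψ : (SA T V m ⊕ K → ℝ) → ℝ}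
    {B : ℝ} (hB : 1 ≤ B) (hG : X.G.PosDef) (h : Hat X ψ B) :
    Hat (X.pull (pol φ)) (fun x => ψ (sg (pol φ) x)) (c * B) := by
  obtain ⟨I, Q, i1, i2, q1, q2, hy⟩ := h
  have c0 : 0 < c₀ := by linarith
  have n0 : (0 : ℝ) ≤ Fintype.card V := Nat.cast_nonneg _
  have c2 : 1 ≤ c₀ ^ 2 := one_le_pow₀ c1
  have c3 : 0 < c := by nlinarith
  have fm : ∀ {f}, Fm (S0 T V m) univ univ f → Fm (S0 T' V m) univ univ fun z => f (pol φ z) :=
    fun hf => ⟨fun _ _ h => by rw [funext fun i => h i (mem_univ i)], fun v hv => (fmp_pol φ).lin (hf.lin v hv)⟩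
  refine ⟨_, _, fm i1, hM.intV i2, fm q1, fun z hz => ?_, fun y k => ?_⟩
  · have a1 := P057CO.ln2_small (ok_S0 hT') (cen_S0 hT') (t := c₀⁻¹) (by positivity)
      (inv_le_one_of_one_le₀ c1) z
    have a2 := q2 _ (hM.ball (scl (S0 T' V m) univ c₀⁻¹ z) (by
      rw [P057MA.ln2_nar, ← le_div_iff₀' (by positivity), one_div, ← inv_pow]
      exact a1.trans (mul_le_of_le_one_right (by positivity) hz)))
    have a3 := ((fm q1).mono (q' := fce (S0 T' V m) univ) (fun i _ => mem_fce.2 (subset_univ _))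
      Subset.rfl).scl univ c₀⁻¹ z
    beta_reduce at a3
    rw [a3, inter_self, card_univ, abs_mul, abs_of_pos (by positivity), inv_pow,
      inv_mul_le_iff₀ (by positivity)] at a2
    exact a2.trans (mul_le_mul_of_nonneg_right h1 (by linarith))
  · obtain ⟨w, hw⟩ := hM.exists_int (y ∘ Sum.inl)
    have e : toR (Sum.elim w (y ∘ Sum.inr)) = sg (pol φ) (toR y) := by
      funext i
      cases i with
      | inl k => exact (congrFun hw k).symm
      | inr e => rfl
    have := hy (Sum.elim w (y ∘ Sum.inr)) (by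
      rw [P057CO.ln2_xt] at k
      rw [e, P057CO.ln2_xt]
      have a1 := qq_clo (X := X.pull (pol φ)) hG id
        (toR y ∘ Sum.inr - ((X.pull (pol φ)).clo id).g (toR y))
      have a2 := ln2_nonneg (q := univ) (ok_S0 hT') (toR y ∘ Sum.inl)
      have a3 : c₀ ^ 2 * (c * B)⁻¹ ≤ 1 := by
        rw [mul_inv_le_iff₀ (by positivity)]; nlinarith
      have a4 := mor_small hM (P057MA.ok_nar (ok_S0 hT') c0.ne') (P057MA.cen_nar (cen_S0 hT') _)
        (ok_S0 hT) (cen_S0 hT) (by positivity) a3 (z := toR y ∘ Sum.inl) (by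
          rw [P057MA.ln2_nar]
          exact mul_le_mul_of_nonneg_left (by linarith) (by positivity))
      have a5 : (X.clo id).g (sg (pol φ) (toR y)) = ((X.pull (pol φ)).clo id).g (toR y) :=
        funext fun e => congrArg (fun u => X.g u e.2) (cpr_sg (pol_pa φ) id e.1 (toR y))
      have a6 : (Fintype.card V * c₀ ^ 2 + 1) * (c * B)⁻¹ ≤ B⁻¹ := by
        rw [mul_inv, ← mul_assoc]
        refine mul_le_of_le_one_left (by positivity) ?_
        rw [mul_inv_le_iff₀ c3]; linarith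
      rw [a5]
      change ln2 _ _ (pol φ (toR y ∘ Sum.inl)) + qq ((X.pull (pol φ)).clo id).G
        (toR y ∘ Sum.inr - _) ≤ _
      linarith)
    simp only [e, cpr_sg (pol_pa φ)] at this
    exact this

end hat

/-- **polarisations of morphisms are morphisms of symbol cubes** -/
theorem morc (s : ℕ) : MORC s := by
  obtain ⟨c₀, hc₀⟩ : ∃ c₀ : ℕ, c₀ = (10 * 3 ^ (s + 1)) ^ (s + 1) := ⟨_, rfl⟩
  have c1 : 1 ≤ c₀ := hc₀ ▸ Nat.one_le_pow _ _ (by positivity)
  have c2 : (1 : ℝ) ≤ c₀ := by exact_mod_cast c1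
  have c3 : (10 * 3 ^ (s + 1) : ℝ) ^ (s + 1) ≤ c₀ := by rw [hc₀]; push_cast; rfl
  have c4 : (1 : ℝ) ≤ (c₀ : ℝ) ^ (s + 1) := one_le_pow₀ c2
  have c5 : (c₀ : ℝ) ≤ (c₀ : ℝ) ^ (s + 1) := le_self_pow₀ c2 (by omega)
  have c6 : (0 : ℝ) ≤ (s + 2) * (c₀ : ℝ) ^ 2 := by positivity
  refine ⟨c₀ ^ (s + 1) + (s + 2) * c₀ ^ 2, le_add_right (Nat.one_le_pow _ _ c1), ?_⟩
  intro N T T' V _ _ m φ hT hT' hV hφ
  refine ⟨mor_pol hT hT' hφ hV (by push_cast; linarith), pol_pa φ, fun K _ _ X ψ B hB hG h =>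
    hat_pol hT hT' c2 (mor_pol hT hT' hφ hV c3) ?_ ?_ hB hG h⟩
  · have := pow_le_pow_right₀ c2 hV
    push_cast; linarith
  · have h1 : (Fintype.card V + 1 : ℝ) ≤ s + 2 := by exact_mod_cast Nat.succ_le_succ hV
    have := mul_le_mul_of_nonneg_right h1 (sq_nonneg (c₀ : ℝ))
    push_cast; linarith

end

end Vale.Agent.P057MC
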