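import Vale.Agent.P057PU.Br
import Vale.Agent.P057CO.Iso
import Vale.Agent.P057NA.Wrap
import Vale.Agent.P057ST.Fr

/-!
Small balls under morphisms; virtual points of symbol cubes.
-/

set_option linter.all false

open Matrix Finset
open Vale.Agent.P267.H775 Vale.Agent.P057G Vale.Agent.P057TP Vale.Agent.P057SY
open Vale.Agent.P057PC (Alg Sup Cf)
open Vale.Agent.P057MA (IntV Fm fce ln2 Nle scl nar ln2_scl ln2_split ln2_nonneg scl_scl scl_one)
open Vale.Agent.P057TE (SL fr fr_sl)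
open Vale.Agent.P057ST (hm wt)
open Vale.Agent.P057PU (cq p_eq pol_eq)

namespace Vale.Agent.P057MC

noncomputable section

section gen

variable {V ι ι' : Type} [Fintype V] [DecidableEq V] [Fintype ι] [DecidableEq ι] [Fintype ι']
  [DecidableEq ι'] {S : MS V ι} {S' : MS V ι'} {P : (ι' → ℝ) → ι → ℝ}

theorem ln2_cov (h : S.Ok) (z : ι → ℝ) (L : Finset V) : ∀ q, Sat S.G q →
    (∀ i ∈ q, ∃ v ∈ L, v ∈ S.fc i) → ln2 S q z ≤ ∑ v ∈ L, ln2 S (S.st v) z := by
  induction L using Finset.induction_on with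
  | empty =>
    intro q _ hq
    have : msk q (z - S.p z) = 0 := funext fun i => msk_neg _ fun hi => by simpa using hq i hi
    rw [ln2, this, qq_zero, sum_empty]
  | insert v L hv ih =>
    intro q h1 hq
    rw [sum_insert hv, ln2_split h (h.sat_st v) q]
    refine add_le_add (P057MA.qq_msk_le h.pd (h1.inter (h.sat_st v)) inter_subset_right _)
      (ih _ (Sat.sdiff h.pd.1 h1 (h.sat_st v)) fun i hi => ?_)
    obtain ⟨w, h2, h3⟩ := hq i (mem_sdiff.1 hi).1
    refine ⟨w, (mem_insert.1 h2).resolve_left fun e => (mem_sdiff.1 hi).2 ?_, h3⟩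
    exact S.mem_st.2 (e ▸ h3)

/-- small balls go to small balls -/
theorem mor_small (hP : P057MA.Mor S' S P) (h' : S'.Ok) (hc' : S'.Cen) (h : S.Ok) (hc : S.Cen)
    {β : ℝ} (b0 : 0 < β) (b1 : β ≤ 1) {z : ι' → ℝ} (hz : ln2 S' univ z ≤ β) :
    ln2 S univ (P z) ≤ Fintype.card V * β := by
  refine (ln2_cov h _ univ univ (fun _ j _ hj => (hj (mem_univ j)).elim) fun i _ =>
    (hc.ne i).imp fun v hv => ⟨mem_univ v, hv⟩).trans ?_
  rw [← card_univ, ← nsmul_eq_mul]
  refine sum_le_card_nsmul _ _ _ fun v _ => ?_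
  have t0 : 0 < √β := Real.sqrt_pos.2 b0
  have t1 : 1 ≤ (√β)⁻¹ := one_le_inv_iff₀.2 ⟨t0, Real.sqrt_le_one.2 b1⟩
  have h1 := ln2_scl (q := univ) h' hc' {v} (t := (√β)⁻¹) (s := (√β)⁻¹) (fun i _ =>
    pow_le_pow_left₀ (by positivity) (by
      simpa using pow_le_pow_right₀ t1 ((card_le_card inter_subset_right).trans
        (card_singleton v).le)) 2) z
  have h2 := hP.ball _ (h1.trans (by
    rw [inv_pow, Real.sq_sqrt b0.le, inv_mul_le_iff₀ b0]; linarith))
  have e : P (scl S' {v} (√β)⁻¹ z) = scl S {v} (√β)⁻¹ (P z) :=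
    funext fun i => (hP.fm i).scl {v} _ z
  have h3 := ln2_scl (q := S.st v) h hc {v} (t := √β) (s := √β) (fun i hi => by
    rw [inter_singleton_of_mem (S.mem_st.1 hi), card_singleton, pow_one]) (scl S {v} (√β)⁻¹ (P z))
  rw [scl_scl, mul_inv_cancel₀ t0.ne', scl_one, Real.sq_sqrt b0.le] at h3
  refine h3.trans (mul_le_of_le_one_right b0.le (le_trans ?_ (e ▸ h2)))
  exact P057MA.qq_msk_le h.pd (h.sat_st v) (subset_univ _) _

theorem mor_nar (hP : P057CO.Fmp S' S P) (hi : ∀ i, IntV fun z => P z i) (h' : S'.Ok)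
    (hc' : S'.Cen) (h : S.Ok) (hc : S.Cen) {a t c : ℝ} (t1 : 1 ≤ t) (c0 : 0 < c)
    (hb : ∀ z, ln2 S' univ z ≤ a → ln2 S univ (P z) ≤ t ^ 2)
    (ha : (t ^ Fintype.card V) ^ 2 ≤ a * c ^ 2) : P057MA.Mor (nar S' c) S P := by
  refine ⟨fun i => ⟨(hP i).on, (hP i).lin⟩, hi, fun z hz => ?_⟩
  have t0 : 0 < t := by linarith
  rw [P057MA.ln2_nar] at hz
  have h1 := ln2_scl (q := univ) h' hc' univ (t := t) (s := t ^ Fintype.card V) (fun i _ =>
    pow_le_pow_left₀ (by positivity) (pow_le_pow_right₀ t1 (card_le_univ _)) 2) z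
  have a0 : 0 ≤ a := nonneg_of_mul_nonneg_left ((sq_nonneg _).trans ha) (by positivity)
  have h2 := hb _ (h1.trans ((mul_le_mul_of_nonneg_right ha (ln2_nonneg h' z)).trans (by
    rw [mul_assoc]; exact mul_le_of_le_one_right a0 hz)))
  have h3 := P057CO.ln2_small h hc (t := t⁻¹) (by positivity) (inv_le_one_of_one_le₀ t1)
    (P (scl S' univ t z))
  rw [← hP.scl, scl_scl, inv_mul_cancel₀ t0.ne', scl_one] at h3
  refine h3.trans ?_
  rw [inv_pow, inv_mul_le_iff₀ (by positivity), mul_one]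
  exact h2

end gen

section alg

variable {V σ : Type} [DecidableEq V]

/-- the indicator of a face -/
def chi (B : Finset V) (v : V) : ℝ := if v ∈ B then 1 else 0

theorem wt_chi (B : Finset V) (μ : Multiset V) :
    wt (chi B) μ = if μ.toFinset ⊆ B then 1 else 0 := by
  induction μ using Multiset.induction_on with
  | empty => simp [wt]
  | cons v μ ih =>
    rw [P057ST.wt_cons, ih, Multiset.toFinset_cons, chi]
    by_cases h : v ∈ B <;> simp [h, insert_subset_iff]

theorem hm_chi (B : Finset V) (u : Alg (Multiset V)) :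
    hm (chi B) u = ∑ μ ∈ u.coeff.support, if μ.toFinset ⊆ B then u.coeff μ else 0 := by
  conv_lhs => rw [← AddMonoidAlgebra.sum_coeff_single u, Finsupp.sum, map_sum]
  simp only [P057ST.hm_real, wt_chi, mul_ite, mul_one, mul_zero]

/-- the top coefficient of a homogeneous element is an alternating sum of values -/
theorem coeff_dlt {u : Alg (Multiset V)} {A : Finset V}
    (hu : Sup (fun μ => μ.card = A.card) u) : u.coeff A.val = dlt (fun B => hm (chi B) u) A := by
  simp only [hm_chi, dlt_sum, dlt_ind]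
  rw [sum_congr rfl (g := fun μ => if μ = A.val then u.coeff μ else 0) fun μ hμ => ?_]
  · rw [sum_ite_eq']
    split_ifs with h
    exacts [rfl, Finsupp.notMem_support_iff.1 h]
  · refine if_congr ⟨fun h => ?_, fun h => by rw [h, val_toFinset]⟩ rfl rfl
    have h1 := hu μ (Finsupp.mem_support_iff.1 hμ)
    have h2 : μ.Nodup := Multiset.toFinset_card_eq_card_iff_nodup.1 (by rw [h]; exact h1.symm)
    rw [← h, Multiset.toFinset_val, h2.dedup]

theorem sup_aeval {lv : σ → ℕ} {n : ℕ} {R : MvPolynomial σ ℝ} (hR : R.IsWeightedHomogeneous lv n)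
    {x : σ → Alg (Multiset V)} (hx : ∀ j, Sup (fun μ => μ.card = lv j) (x j)) :
    Sup (fun μ => μ.card = n) (MvPolynomial.aeval x R) := by
  rw [MvPolynomial.aeval_def, ← MvPolynomial.eval_map]
  refine P057ST.Hg.eval (fun β => ?_) hx
  rw [MvPolynomial.coeff_map]
  by_cases h : MvPolynomial.coeff β R = 0
  · rw [h, map_zero]; exact Sup.zero _
  · exact Sup.single (P := fun μ : Multiset V => Finsupp.weight lv β + μ.card = n) (m := 0)
      (by simpa using hR h) _

/-- the same squarefree coefficients -/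
def Cg (x y : σ → Alg (Multiset V)) : Prop :=
  ∀ a (F : Finset V), (x a).coeff F.val = (y a).coeff F.val

theorem Cg.aeval {x y : σ → Alg (Multiset V)} (h : Cg x y) (R : MvPolynomial σ ℝ) (F : Finset V) :
    (MvPolynomial.aeval x R).coeff F.val = (MvPolynomial.aeval y R).coeff F.val := by
  have h1 := (Sup.eval_sub (I := fun μ : Multiset V => ¬ μ.Nodup)
    (fun μ μ' h1 h2 => h1 (Multiset.nodup_add.1 h2).1) (x := x) (x' := y)
    (fun a μ hμ h2 => hμ (by
      rw [AddMonoidAlgebra.coeff_sub, Finsupp.sub_apply, sub_eq_zero]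
      exact h a ⟨μ, h2⟩)) (MvPolynomial.map (algebraMap ℝ _) R)).coeff (not_not.2 F.nodup)
  rwa [AddMonoidAlgebra.coeff_sub, Finsupp.sub_apply, sub_eq_zero, MvPolynomial.eval_map,
    MvPolynomial.eval_map, ← MvPolynomial.aeval_def, ← MvPolynomial.aeval_def] at h1

end alg

variable {V : Type} [Fintype V] [DecidableEq V] {T T' : Tow} {m s : ℕ} {N : ℝ}

/-- the point of a configuration of the symbol cube -/
abbrev PT (x : SA T V m → ℝ) : T.ι → Alg (Multiset V) := (fr SL.cd SL.fc 0).pt x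

theorem pt_lab (x : SA T V m → ℝ) (k : SA T V m) : (PT x k.cd).coeff k.fc.val = x k :=
  ((fr_sl (T := T) (D := fun _ : Finset V => True) (m := m) fun _ _ _ _ => trivial).ok 0).coeff_pt
    x k

theorem pt_ne {x : SA T V m → ℝ} {a : T.ι} {μ : Multiset V} (h : (PT x a).coeff μ ≠ 0) :
    ∃ k : SA T V m, k.cd = a ∧ k.fc.val = μ := by
  classical
  rw [Cf.coeff_pt] at h
  obtain ⟨k, -, hk⟩ := exists_ne_zero_of_sum_ne_zero h
  exact ⟨k, by_contra fun n => hk (if_neg n)⟩

theorem pt_sup (x : SA T V m → ℝ) (a : T.ι) : Sup (fun μ => μ.card = T.lv a) (PT x a) :=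
  fun μ h => by
    obtain ⟨k, rfl, rfl⟩ := pt_ne h
    exact k.2.2.1

theorem pt_out (x : SA T V m → ℝ) {a : T.ι} {F : Finset V} (h : ¬ (T.lv a < m ∧ F.card = T.lv a)) :
    (PT x a).coeff F.val = 0 := by_contra fun n => by
  obtain ⟨k, rfl, e⟩ := pt_ne n
  exact h ⟨k.2.1, val_injective e ▸ k.2.2.1⟩

/-- virtual points: homogeneous, with squarefree positions -/
theorem exists_vp (hT : T.Ok s N) (x : SA T V m → ℝ) : ∃ Y : T.ι → Alg (Multiset V),
    (∀ a, Sup (fun μ => μ.card = T.lv a) (Y a)) ∧ Cg Y (PT x) ∧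
      ∀ a, T.lv a < m → Y a - MvPolynomial.aeval Y (T.q a) = PT (x - (S0 T V m).p x) a := by
  classical
  obtain ⟨Y, hY⟩ := P057NA.exists_fix T.lv (fun (Y : T.ι → Alg (Multiset V)) a => PT x a +
    AddMonoidAlgebra.ofCoeff ((MvPolynomial.aeval Y (T.q a)).coeff.filter fun μ =>
      ¬ μ.Nodup ∧ μ.card = T.lv a)) fun a y y' h => by
    rw [show MvPolynomial.aeval y (T.q a) = MvPolynomial.aeval y' (T.q a) from
      MvPolynomial.eval₂Hom_congr' rfl (fun b hb _ => h b (hT.low a b hb)) rfl]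
  have h0 : ∀ a μ, (Y a).coeff μ = (PT x a).coeff μ +
      if ¬ μ.Nodup ∧ μ.card = T.lv a then (MvPolynomial.aeval Y (T.q a)).coeff μ else 0 :=
    fun a μ => by
      conv_lhs => rw [hY]
      rw [AddMonoidAlgebra.coeff_add, Finsupp.add_apply, Finsupp.filter_apply]
  have h1 : ∀ a, Sup (fun μ => μ.card = T.lv a) (Y a) := fun a μ h => by_contra fun n => h (by
    rw [h0, (pt_sup x a).coeff n, if_neg fun k => n k.2, add_zero])
  have h2 : Cg Y (PT x) := fun a F => by rw [h0, if_neg fun k => k.1 F.nodup, add_zero]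
  refine ⟨Y, h1, h2, fun a ha => ?_⟩
  ext μ
  rw [AddMonoidAlgebra.coeff_sub, Finsupp.sub_apply]
  by_cases hc : μ.card = T.lv a
  · by_cases hn : μ.Nodup
    · let k : SA T V m := ⟨(a, ⟨μ, hn⟩), ha, hc, trivial⟩
      have e := pt_lab (x - (S0 T V m).p x) k
      rw [Pi.sub_apply, p_eq, ← pt_lab x k, cq, ← h2, ← h2.aeval] at e
      exact e.symm
    · have e : ∀ y : SA T V m → ℝ, (PT y a).coeff μ = 0 := fun y => by_contra fun n => by
        obtain ⟨k, -, rfl⟩ := pt_ne n
        exact hn k.fc.nodup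
      rw [h0, if_pos ⟨hn, hc⟩, e, e, zero_add, sub_self]
  · rw [(h1 a).coeff hc, (sup_aeval (hT.hom a) h1).coeff hc, (pt_sup _ a).coeff hc, sub_self]

theorem hm_ps (B : Finset V) (Y : T.ι → Alg (Multiset V)) (a : T.ι) :
    hm (chi B) (Y a - MvPolynomial.aeval Y (T.q a)) = T.ps (fun b => hm (chi B) (Y b)) a := by
  rw [map_sub, MvPolynomial.comp_aeval_apply, MvPolynomial.aeval_eq_eval, Tow.ps]

/-- positions as alternating sums of positions of real points -/
theorem pos_dlt (hT : T.Ok s N) {x : SA T V m → ℝ} {Y : T.ι → Alg (Multiset V)}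
    (h1 : ∀ a, Sup (fun μ => μ.card = T.lv a) (Y a)) (h2 : Cg Y (PT x)) (k : SA T V m) :
    (x - (S0 T V m).p x) k = dlt (fun B => T.ps (fun b => hm (chi B) (Y b)) k.cd) k.fc := by
  have hk : k.fc.card = T.lv k.cd := k.2.2.1
  simp only [← hm_ps]
  rw [← coeff_dlt (hk ▸ P057ST.Sup.sub (h1 _) (sup_aeval (hT.hom _) h1)),
    AddMonoidAlgebra.coeff_sub, Finsupp.sub_apply, h2, h2.aeval, pt_lab, Pi.sub_apply, p_eq, cq]

theorem ln2_S0 (x : SA T V m → ℝ) : ln2 (S0 T V m) univ x =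
    25 * ∑ F : Finset V, qq T.G fun a => (PT (x - (S0 T V m).p x) a).coeff F.val := by
  classical
  rw [ln2, show msk univ (x - (S0 T V m).p x) = _ from funext fun i => msk_pos _ (mem_univ i)]
  generalize x - (S0 T V m).p x = u
  change qq ((25 : ℝ) • (fr SL.cd SL.fc 0).Gam T.tw) u = _
  rw [qq_smul_mat, Cf.qq_Gam, ← sum_image (s := univ) (g := Finset.val)
    (f := fun μ => qq T.G fun a => (PT u a).coeff μ) val_injective.injOn]
  congr 1
  refine sum_subset (fun μ hμ => ?_) fun μ _ hμ => ?_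
  · obtain ⟨k, -, rfl⟩ := mem_image.1 hμ
    exact mem_image_of_mem _ (mem_univ _)
  · rw [show (fun a => (PT u a).coeff μ) = 0 from funext fun a => by_contra fun n => by
      obtain ⟨k, -, rfl⟩ := pt_ne n
      exact hμ (mem_image_of_mem _ (mem_univ k))]
    exact qq_zero _

end

end Vale.Agent.P057MC
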